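import Vale.Agent.N352.K.Fin

/-!
# N352, block Z: multiplets and scaling laws in the extension
-/

set_option linter.all false

open Filter Topology

namespace Vale.Agent.N352.G.X

open Vale.Agent.P352 Vale.Agent.P352.GF Vale.Agent.P352.BW Vale.Agent.P352.H246
open Vale.Agent.P352.H496 Vale.Agent.P352.H755 Vale.Agent.P352.H15
open Vale.Agent.P352X Vale.Agent.P352X.EB
open UniformSpace (Completion)

noncomputable section

variable {D : Type*} [NormedAddCommGroup D] [InnerProductSpace ℂ D]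

/-- the fields are closed under finite sums -/
def Cl (P : Theory D) : Prop := P.fld 0 ∧ ∀ A B, P.fld A → P.fld B → P.fld (A + B)

theorem cl_row {c : Ctx D} {Λ : Type*} {x : Lt c Λ} {Q : Theory x.Dn}
    (b3 : ∀ B, Q.fld B ↔ x.Fs (fun _ => True) B) : Cl Q := by
  refine ⟨(b3 _).2 ⟨0, Fin.elim0, fun _ => trivial, rfl⟩, fun A B a b => ?_⟩
  obtain ⟨n, p, -, rfl⟩ := (b3 A).1 a
  obtain ⟨m, q, -, rfl⟩ := (b3 B).1 b
  refine (b3 _).2 ⟨n + m, Fin.append p q, fun _ => trivial, funext₂ fun f v => ?_⟩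
  simp only [Fin.sum_univ_add, Fin.append_left, Fin.append_right, Pi.add_apply]

/-- the scaling law -/
def Law (P : Theory D) (A : Fld D) (F : Finset (ℂ × ℕ)) (B : ℂ × ℕ → Fld D) : Prop :=
  ∀ (s : ℝ) f v, 0 < s → IsTest f →
    A f (P.U s GF.one 0 v) = ∑ p ∈ F, ((s : ℂ) ^ (4 - p.1) * (Real.log s : ℂ) ^ p.2) •
      P.U s GF.one 0 (B p (fun x => f (sim s GF.one 0 x)) v)

/-- the Bose parts satisfy the scaling law of a Bose field -/
theorem fsl_of {P : Theory D} {G} (g : Gr P G)
    (h : ∀ A, P.fld A → ∃ F B, (∀ p, P.fld (B p)) ∧ Law P A F B) : FSL P := fun A a => by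
  obtain ⟨F, B, b, l⟩ := h A a
  by_cases k : P.bose A
  swap
  · exact ⟨F, B, fun p => ⟨b p, fun x => absurd x k⟩, l⟩
  choose C C' c c' e using fun p => g.split _ (b p)
  refine ⟨F, C, fun p => ⟨P.bose_fld _ (c p), fun _ => c p⟩, fun s f v hs hf => ?_⟩
  let M : D →ₗ[ℂ] D :=
    { toFun := G
      map_add' := fun v w => ext_inner_right ℂ fun y => by simp only [g.herm, inner_add_left]
      map_smul' := fun z v => ext_inner_right ℂ fun y => by
        simp only [g.herm, inner_smul_left, RingHom.id_apply] }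
  have o := H496.isLor_one
  have t := Ap.test_sim hs o 0 hf
  have u := congrArg M (l s f (G v) hs hf)
  rw [g.GU _ _ _ _ hs o, g.bose A f _ k hf, map_sum] at u
  refine smul_right_injective _ (two_ne_zero (α := ℂ)) ?_
  simp only [two_smul, ← Finset.sum_add_distrib]
  refine (congrArg₂ _ (l s f v hs hf) ((g.inv _).symm.trans u)).trans ?_
  rw [← Finset.sum_add_distrib]
  refine Finset.sum_congr rfl fun p _ => ?_
  rw [map_smul, ← smul_add, ← smul_add, show ∀ w, M w = G w from fun _ => rfl, ← g.GU _ _ _ _ hs o,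
    ← U_add hs o, ← U_add hs o, e p _ _ t, e p _ _ t, g.bose _ _ _ (c p) t, (c' p).2 _ _ t,
    show ∀ w, G w = M w from fun _ => rfl, map_add, map_neg]
  simp only [M, LinearMap.coe_mk, AddHom.coe_mk, g.inv]
  congr 2
  abel

variable {c : Ctx D} {D' : Submodule ℂ (Completion D)} {P : Theory D'} {G' e L}
  (h : FINp c P G' e L) (hM : MfAll c.Q) (hF : FSL c.Q)
include h hM hF

/-- the fields of the extension are sums of components of multiplets -/
theorem FINp.mfa : MfAll P := fun A a => by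
  obtain ⟨m, C, hC, k⟩ := h.gen A a
  have key : ∀ i, ∃ (r : ℕ) (B : Fin r → Fld D'), (∀ j, ∃ k Φ a, IsMf P k Φ ∧ B j = Φ a) ∧
      ∀ f v, IsTest f → C i f v = ∑ j, B j f v := fun i => by
    rcases hC i with k | ⟨C', a, b⟩
    · refine ⟨1, fun _ => L, fun _ => ⟨EG.rp0, fun _ => L, (0 : Fin 1), ⟨fun _ =>
        P.bose_fld _ h.sca.1, fun a M f v hM hf => ?_⟩, rfl⟩, fun _ _ _ => by simp [k]⟩
      have := h.sca.2.2 1 M 0 f v one_pos hM hf
      rw [Real.one_rpow] at this
      have e : ∀ (a : Fin 1) (w : D'), ((1 : ℝ) : ℂ) • w =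
          ∑ b : Fin 1, (1 : Matrix (Fin 1) (Fin 1) ℂ) b a • w := fun a w => by
        rw [Fin.sum_univ_one, Subsingleton.elim a 0]
        simp
      exact this.trans (e a _)
    · obtain ⟨r, B, p, q⟩ := hM C' a
      choose k Φ j p p' using p
      refine ⟨r, fun i => e (B i), fun i => ⟨k i, fun b => e (Φ i b), j i,
        ⟨fun b => h.ext.fld _ ((p i).1 b), fun b M f v hL hf => ?_⟩, congrArg e (p' i)⟩,
        fun f v hf => (b f v hf).trans (ext_sum h.ext a (fun i => p' i ▸ (p i).1 _) q hf v)⟩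
      exact ext_cov (cov0_row hM hF) h.ext ⟨1, M, 0, one_pos, hL⟩ ((p i).1 b) (p i).1
        (fun g w hg => (p i).2 b M g w hL hg) hf v
  choose r B b1 b2 using key
  let E := (Fintype.equivFin (Σ i, Fin (r i))).symm
  refine ⟨_, fun j => B (E j).1 (E j).2, fun j => b1 _ _, fun f v hf => (k f v).trans ?_⟩
  rw [E.sum_comp fun j => B j.1 j.2 f v, Fintype.sum_sigma]
  exact Finset.sum_congr rfl fun i _ => b2 i f v hf

/-- the fields of the extension have finite scaling laws -/
theorem FINp.fsl (cl : Cl P) : FSL P := fsl_of h.ext.toGr fun A a => by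
  classical
  obtain ⟨m, C, hC, k⟩ := h.gen A a
  have o := H496.isLor_one
  have key : ∀ i, ∃ F B, (∀ p, P.fld (B p)) ∧ Law P (C i) F B := fun i => by
    rcases hC i with k | ⟨C', a, b⟩
    · refine ⟨{(2, 0)}, fun _ => L, fun _ => P.bose_fld _ h.sca.1, fun s f v hs hf => ?_⟩
      rw [k, h.sca.2.2 s _ 0 f v hs o hf, Complex.ofReal_cpow hs.le, Finset.sum_singleton, pow_zero,
        mul_one]
      push_cast
      rfl
    · obtain ⟨F, B, p, q⟩ := hF C' a
      refine ⟨F, fun p => e (B p), fun j => h.ext.fld _ (p j).1, fun s f v hs hf => ?_⟩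
      rw [b _ _ hf, ← Finset.sum_coe_sort]
      exact ext_cov (cov0_row hM hF) h.ext ⟨s, _, 0, hs, o⟩ a (fun i : F => (p i).1)
        (fun g w hg => (q s g w hs hg).trans (Finset.sum_coe_sort _ _).symm) hf v
  choose F B b l using key
  refine ⟨Finset.univ.biUnion F, fun p => ∑ i with p ∈ F i, B i p, fun p =>
    Finset.sum_induction _ _ cl.2 cl.1 fun i _ => b i p, fun s f v hs hf => ?_⟩
  simp only [k, fun i => l i s f v hs hf, Finset.sum_apply, H246.U_sum hs o, Finset.smul_sum]
  exact Finset.sum_comm' fun i p => by simpa using fun x => ⟨i, x⟩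

end

end Vale.Agent.N352.G.X
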