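import Vale.Agent.N352.K.Top3
import Vale.Agent.N352.DefZ

/-!
# N352, block Z: the compact statement
-/

set_option linter.all false

open Filter Topology

namespace Vale.Agent.N352.Z

open P352.GF
open UniformSpace (Completion)

noncomputable section

universe u v

variable {D : Type u} {D' : Type v} [NormedAddCommGroup D] [InnerProductSpace ℂ D]
  [NormedAddCommGroup D'] [InnerProductSpace ℂ D'] {Q R : Theory D} {G : D → D}
  {T t : Ix → Ix → Fld D} {J : Ix → Fld D} {Γ : Completion D →L[ℂ] Completion D}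
  {N : Set V → VonNeumannAlgebra (Completion D)}

/-- spins -/
@[reducible] def old (k : Dz.Rp) : Dn.Rp := ⟨k.dm, k.ρ, k.sp, k.id, k.mul, k.der⟩

/-- spins -/
@[reducible] def new (k : Dn.Rp) : Dz.Rp := ⟨k.n, k.ρ, k.S, k.id, k.mul, k.der⟩

theorem kil {X} (h : Dz.IsKil X) : Dn.IsKil X := have ⟨a, b, r, w, h, e⟩ := h; ⟨a, b, r, w, h, e⟩

theorem gr : Dz.Gr Q G ↔ Dn.Gr Q G :=
  ⟨fun h => ⟨h.1, h.2, h.3, h.4, h.5, h.6, h.7⟩, fun h => ⟨h.1, h.2, h.3, h.4, h.5, h.6, h.7⟩⟩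

theorem stress : Dz.Stress Q T ↔ Dn.Stress Q T :=
  ⟨fun h => ⟨h.1, h.2, h.3, h.4, h.5⟩, fun h => ⟨h.1, h.2, h.3, h.4, h.5⟩⟩

theorem st (h : Q.IsStress T) : Dz.Stress Q T :=
  ⟨h.1, h.2, h.3, fun m n L a f v => h.4 m n 1 L a f v one_pos, h.5⟩

/-- the velocity field of a curve of Poincaré transformations -/
theorem isSim {L : ℝ → Ix → V} {a : ℝ → V} {X : V → V} (l : L 0 = one) (h : ∀ e, IsLor (L e))
    (d : ∀ n x, HasDerivAt (fun e => sim 1 (L e) (a e) x n) (X x n) 0) : Dn.IsSim 0 X := by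
  have da : ∀ n, HasDerivAt (fun e => a e n) (X 0 n) 0 := fun n => by simpa [sim] using d n 0
  have dl : ∀ m n, HasDerivAt (fun e => L e m n) (X (bas m 1) n - X 0 n) 0 := fun m n => by
    simpa [sim, bas] using (d n (bas m 1)).fun_sub (da n)
  refine ⟨X 0, fun m n => X (bas m 1) n - X 0 n, fun m n => ?_, fun z n => ?_⟩
  · have k := HasDerivAt.fun_sum (u := Finset.univ) fun j _ =>
      ((dl m j).const_mul (eta j)).fun_mul (dl n j)
    have e := k.unique ((hasDerivAt_const (0 : ℝ) (bas m (eta m) n)).congr_of_eventuallyEq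
      (.of_forall fun e => (h e).1 m n))
    simp only [l, one, bas, mul_ite, ite_mul, mul_one, mul_zero, zero_mul, Finset.sum_add_distrib,
      Finset.sum_ite_eq', Finset.mem_univ, if_true] at e ⊢
    linarith
  · have k := (da n).fun_add (HasDerivAt.fun_sum (u := Finset.univ) fun j _ =>
      (dl j n).const_mul (z j))
    rw [zero_mul, add_zero]
    exact (d n z).unique (by simpa only [sim, one_mul] using k)

theorem pgen : Dz.PGen Q T ↔ Dn.PGen Q T :=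
  ⟨fun h L a X p q r _ => h L a X p q r, fun h L a X p q r s => h L a X p q r (isSim p r s) s⟩

theorem vir : Dz.Vir Q T J ↔ Dn.Vir Q T J := ⟨fun h => ⟨h.1, h.2, h.3⟩, fun h => ⟨h.1, h.2, h.3⟩⟩

theorem fsl : Dz.FSL Q ↔ Dn.FSL Q :=
  ⟨fun h A a => (h A a).imp fun _ => Exists.imp fun _ k => ⟨k.1, k.2⟩,
    fun h A a => (h A a).imp fun _ => Exists.imp fun _ k => ⟨k.1, k.2⟩⟩

theorem mfa : Dz.MfA Q ↔ Dn.MfA Q :=
  ⟨fun h A a => (h A a).imp fun _ => Exists.imp fun _ k =>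
      ⟨fun i => have ⟨r, x⟩ := k.1 i; ⟨old r, x⟩, k.2⟩,
    fun h A a => (h A a).imp fun _ => Exists.imp fun _ k =>
      ⟨fun i => have ⟨r, x⟩ := k.1 i; ⟨new r, x⟩, k.2⟩⟩

theorem net : Dz.Net Q G Γ N ↔ Dn.Net Q G Γ N :=
  ⟨fun h => ⟨h.1, h.2, h.3, h.4, h.5⟩, fun h => ⟨h.1, h.2, h.3, h.4, h.5⟩⟩

theorem aff : Dz.Aff Q (↑) N ↔ Dn.Aff Q N :=
  ⟨fun h O o Y y => (h.1 O o Y y).1, fun h => ⟨fun O o Y y => ⟨h O o Y y⟩⟩⟩

theorem rel : Dz.Rel Q Γ N ↔ Dn.Rel Q Γ N :=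
  ⟨fun h => ⟨h.1, fun O O' a b c X x => (h.2 O O' a b c X x).imp (·.1) (·.1)⟩,
    fun h => ⟨h.1, fun O O' a b c X x => (h.2 O O' a b c X x).imp (⟨·⟩) (⟨·⟩)⟩⟩

theorem hy (h : Dz.Hyp Q G T J Γ N) : Dn.Hy Q G T Γ N :=
  ⟨gr.1 h.1, h.2, stress.1 h.3, pgen.1 h.4, .inl ⟨J, vir.1 h.5⟩, .inr ⟨mfa.1 h.6, fsl.1 h.7⟩,
    net.1 h.8, h.9.imp aff.1 rel.1⟩

theorem recn : Dz.RecN Q N ↔ Dk.RecN Q N :=
  ⟨fun h => ⟨fun l a b c d => h.1 l a b c fun O f Z p q => d O f Z p q.1⟩,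
    fun h => ⟨fun l a b c d => h.1 l a b c fun O f Z p q => d O f Z p ⟨q⟩⟩⟩

theorem al {X Y} (h : Dz.Al Q X Y) : Dn.Al Q X Y := by
  induction h with
  | unit => exact .one
  | add _ _ _ _ _ _ a b => exact .add _ _ _ _ a b
  | smul c _ _ _ a => exact .smul c _ _ a
  | mul A B f _ _ p q r s _ a => exact .fld A B f _ _ p q r s a

theorem loc {p A B} (h : Dn.IsLoc Q p A B) : Dz.IsLoc Q p A B := ⟨h.1, h.2, h.3, h.4, h.5, h.6⟩

theorem act (h : Dn.ConfAct Q t) : Dz.ConfAct Q t := ⟨fun A B a b c =>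
  have ⟨S, S', K, K', p, q, r⟩ := h.1 A B a b c
  ⟨S, S', K, K', fun m n => loc (p m n), fun m => loc (q m), fun X f w v x => r X f w v (kil x)⟩⟩

theorem prim {e k d A B} (h : Dn.PrimS Q G t e k d A B) : Dz.PrimS Q G t e (new k) d A B :=
  ⟨fun a => (h.1 a).imp fun _ => loc, h.2, h.3, fun X x => ⟨(h.4 X (kil x)).1⟩⟩

theorem desc (h : Dn.Desc Q G t) : Dz.Desc Q G t := fun B b =>
  have ⟨n, e, C, p, q⟩ := h B b
  ⟨n, e, C, fun j => have ⟨n, k, d, c, α, a, A, A', x, y⟩ := p j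
    ⟨n, fun i => new (k i), d, c, α, a, A, A', fun i => prim (x i), y⟩, q⟩

theorem cf (h : Dk.Cnf Q G T t) : Dz.Cf Q G T t :=
  have ⟨S, L, a, b⟩ := h.form
  have ⟨k, p, q, x, y, z⟩ := h.prim
  ⟨⟨S, L, st a, b⟩, h.impr.symm, h.impr.conserved, h.impr.traceless, h.impr.charge, act h.act,
    fun X Y Y' x y => h.cfs.ward X Y Y' (kil x) (al y), ⟨new k, p, q, x, y, prim z⟩,
    fun m l => desc (h.desc (mfa.1 m) (fsl.1 l))⟩

theorem ext {P : Theory D'} {k G' e} (h : Dk.Exk Q Γ N P k G' e) : Dz.Ext Q Γ N P k G' e :=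
  ⟨gr.2 h.toGr, h.vac, h.G, h.U, h.fld, h.bos, h.adj, h.agree, fun O Z z =>
    (h.rel O Z z.1).imp (fun w => ⟨fun B B' f v u a b c _ _ => w.1 B B' f v u a b c⟩)
      fun w => ⟨fun B B' f v u a b c _ _ => w.1 B B' f v u a b c⟩⟩

variable (D) in
/-- **the theorem** -/
theorem main : Dz.Main D where
  conf Q G T J Γ N h r :=
    ((K.thm D D).net Q G T Γ N (hy h) (recn.1 r)).imp fun _ k => ⟨cf k.1, desc k.2⟩
  ext Q G T J Γ N h :=
    have ⟨S, a, b, E, _, _, P, k, G', e, t, Γ', N', x, s, m, l, p, n, f, y, z⟩ := K.ext3 (hy h)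
    ⟨S, st a, b, E, _, _, P, k, G', e, t, ext x, stress.2 s, pgen.2 p, mfa.2 m, fsl.2 l,
      ⟨Γ', N', net.2 n, aff.2 f⟩, desc y, fun R u w => cf (z R ⟨u.1, u.2, u.3, u.4⟩ (gr.1 w))⟩

/-- **the witness** -/
theorem wit : ∃ (E : Type) (_ : NormedAddCommGroup E) (_ : InnerProductSpace ℂ E), Dz.Wit E := by
  obtain ⟨E, _, _, Q, T, N, J, B, h, r, -, -, v, -, ⟨m, l⟩, a, -, k⟩ := K.wik
  exact ⟨E, _, _, Q, T, J, N, B, ⟨gr.2 h.1, h.2, stress.2 h.3, pgen.2 h.4, vir.2 v, mfa.2 m,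
    fsl.2 l, net.2 h.7, .inl (aff.2 a)⟩, recn.2 r, k⟩

end

end Vale.Agent.N352.Z
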